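import Vale.Agent.P229.Defs

/-!
# P229: facts about the profiles `kk`, `chi`, `cut` and the parameters (shared)   (helper80)
-/

namespace P229

open Set Real
open scoped ContDiff

private lemma st_cd {n : ℕ∞} : ContDiff ℝ n Real.smoothTransition := Real.smoothTransition.contDiff

private lemma two_le_infty : (2 : WithTop ℕ∞) ≤ ∞ := by
  exact WithTop.coe_le_coe.2 (le_top (a := (2 : ℕ∞)))

lemma kk_contDiff : ContDiff ℝ ∞ kk := by
  unfold kk
  exact (st_cd.comp (by fun_prop)).mul (st_cd.comp (by fun_prop))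
lemma chi1_contDiff : ContDiff ℝ ∞ chi1 := by
  unfold chi1
  exact (st_cd.comp (by fun_prop)).mul (st_cd.comp (by fun_prop))
lemma chi_contDiff : ContDiff ℝ ∞ chi := by
  unfold chi
  exact chi1_contDiff.add (chi1_contDiff.comp (by fun_prop))
lemma cut_contDiff : ContDiff ℝ ∞ cut := by
  unfold cut
  exact (st_cd.comp (by fun_prop)).mul (st_cd.comp (by fun_prop))

lemma kk_nonneg (y : ℝ) : 0 ≤ kk y :=
  mul_nonneg (Real.smoothTransition.nonneg _) (Real.smoothTransition.nonneg _)
lemma kk_le_one (y : ℝ) : kk y ≤ 1 :=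
  mul_le_one₀ (Real.smoothTransition.le_one _) (Real.smoothTransition.nonneg _)
    (Real.smoothTransition.le_one _)
lemma kk_even (y : ℝ) : kk (-y) = kk y := by
  unfold kk
  rw [mul_comm]
  congr 2 <;> ring_nf
lemma kk_eq_one {y : ℝ} (h : |y| ≤ 1 / 2) : kk y = 1 := by
  have h1 := abs_le.1 h
  unfold kk
  rw [Real.smoothTransition.one_of_one_le (by linarith), Real.smoothTransition.one_of_one_le
    (by linarith), one_mul]
lemma kk_eq_zero {y : ℝ} (h : 1 ≤ |y|) : kk y = 0 := by
  unfold kk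
  rcases le_abs.1 h with h1 | h1
  · rw [Real.smoothTransition.zero_of_nonpos (by linarith), zero_mul]
  · rw [Real.smoothTransition.zero_of_nonpos (x := 2 * (1 + y)) (by linarith), mul_zero]

lemma chi1_nonneg (y : ℝ) : 0 ≤ chi1 y :=
  mul_nonneg (Real.smoothTransition.nonneg _) (Real.smoothTransition.nonneg _)
lemma chi1_le_one (y : ℝ) : chi1 y ≤ 1 :=
  mul_le_one₀ (Real.smoothTransition.le_one _) (Real.smoothTransition.nonneg _)
    (Real.smoothTransition.le_one _)
lemma chi1_eq_zero_of_le {y : ℝ} (h : y ≤ 2) : chi1 y = 0 := by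
  unfold chi1
  rw [Real.smoothTransition.zero_of_nonpos (by linarith), zero_mul]
lemma chi1_eq_zero_of_ge {y : ℝ} (h : 21 / 10 ≤ y) : chi1 y = 0 := by
  unfold chi1
  rw [Real.smoothTransition.zero_of_nonpos (x := 30 * (21 / 10 - y)) (by linarith), mul_zero]
lemma chi1_eq_one {y : ℝ} (h1 : 61 / 30 ≤ y) (h2 : y ≤ 62 / 30) : chi1 y = 1 := by
  unfold chi1
  rw [Real.smoothTransition.one_of_one_le (by linarith), Real.smoothTransition.one_of_one_le
    (by linarith), one_mul]

lemma chi_nonneg (y : ℝ) : 0 ≤ chi y := add_nonneg (chi1_nonneg _) (chi1_nonneg _)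
lemma chi_le_one (y : ℝ) : chi y ≤ 1 := by
  unfold chi
  rcases le_total 0 y with h | h
  · rw [chi1_eq_zero_of_le (y := -y) (by linarith), add_zero]; exact chi1_le_one y
  · rw [chi1_eq_zero_of_le (y := y) (by linarith), zero_add]; exact chi1_le_one _
lemma chi_even (y : ℝ) : chi (-y) = chi y := by
  unfold chi; rw [neg_neg, add_comm]
lemma chi_eq_zero {y : ℝ} (h : |y| ≤ 2) : chi y = 0 := by
  have h1 := abs_le.1 h
  unfold chi
  rw [chi1_eq_zero_of_le h1.2, chi1_eq_zero_of_le (by linarith), add_zero]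
lemma chi_eq_zero' {y : ℝ} (h : 21 / 10 ≤ |y|) : chi y = 0 := by
  unfold chi
  rcases le_abs.1 h with h1 | h1
  · rw [chi1_eq_zero_of_ge h1, chi1_eq_zero_of_le (by linarith), add_zero]
  · rw [chi1_eq_zero_of_ge h1, chi1_eq_zero_of_le (by linarith), add_zero]
lemma chi_eq_one {y : ℝ} (h1 : 61 / 30 ≤ |y|) (h2 : |y| ≤ 62 / 30) : chi y = 1 := by
  have h3 := abs_le.1 h2
  unfold chi
  rcases le_abs.1 h1 with h | h
  · rw [chi1_eq_one h h3.2, chi1_eq_zero_of_le (by linarith), add_zero]
  · rw [chi1_eq_one h (by linarith), chi1_eq_zero_of_le (by linarith), zero_add]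

lemma cut_nonneg (y : ℝ) : 0 ≤ cut y :=
  mul_nonneg (Real.smoothTransition.nonneg _) (Real.smoothTransition.nonneg _)
lemma cut_le_one (y : ℝ) : cut y ≤ 1 :=
  mul_le_one₀ (Real.smoothTransition.le_one _) (Real.smoothTransition.nonneg _)
    (Real.smoothTransition.le_one _)
lemma cut_eq_one {x : ℝ} (h : |x| ≤ 3 / 2) : cut x = 1 := by
  have h1 := abs_le.1 h
  unfold cut
  rw [Real.smoothTransition.one_of_one_le (by linarith), Real.smoothTransition.one_of_one_le
    (by linarith), one_mul]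
lemma cut_eq_zero {x : ℝ} (h : 2 ≤ |x|) : cut x = 0 := by
  unfold cut
  rcases le_abs.1 h with h1 | h1
  · rw [Real.smoothTransition.zero_of_nonpos (by linarith), zero_mul]
  · rw [Real.smoothTransition.zero_of_nonpos (x := 2 * (2 + x)) (by linarith), mul_zero]

/-- a differentiable nonnegative function has derivative zero where it vanishes. -/
lemma deriv_zero_of_nonneg {f : ℝ → ℝ} (h0 : ∀ x, 0 ≤ f x) {y : ℝ} (hy : f y = 0) :
    deriv f y = 0 := by
  have : IsLocalMin f y := Filter.Eventually.of_forall (fun x => by rw [hy]; exact h0 x)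
  exact this.deriv_eq_zero

/-- derivatives vanish outside the supports (closed versions). -/
lemma deriv_kk_eq_zero {y : ℝ} (h : 1 ≤ |y|) : deriv kk y = 0 :=
  deriv_zero_of_nonneg kk_nonneg (kk_eq_zero h)
lemma deriv_chi_eq_zero {y : ℝ} (h : |y| ≤ 2) : deriv chi y = 0 :=
  deriv_zero_of_nonneg chi_nonneg (chi_eq_zero h)
lemma deriv_kk_odd (y : ℝ) : deriv kk (-y) = -deriv kk y := by
  have h : kk = fun t => kk (-t) := by funext t; rw [kk_even]
  have h2 : deriv kk y = deriv (fun t => kk (-t)) y := by rw [← h]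
  rw [deriv_comp_neg] at h2
  rw [h2, neg_neg]
lemma deriv_chi_odd (y : ℝ) : deriv chi (-y) = -deriv chi y := by
  have h : chi = fun t => chi (-t) := by funext t; rw [chi_even]
  have h2 : deriv chi y = deriv (fun t => chi (-t)) y := by rw [← h]
  rw [deriv_comp_neg] at h2
  rw [h2, neg_neg]
lemma deriv2_kk_even (y : ℝ) : deriv (deriv kk) (-y) = deriv (deriv kk) y := by
  have h : deriv kk = fun t => -deriv kk (-t) := by funext t; rw [deriv_kk_odd, neg_neg]
  have h2 : deriv (deriv kk) y = deriv (fun t => -deriv kk (-t)) y := by rw [← h]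
  rw [deriv.fun_neg, deriv_comp_neg] at h2
  rw [h2, neg_neg]
lemma deriv2_kk_eq_zero {y : ℝ} (h : 1 ≤ |y|) : deriv (deriv kk) y = 0 := by
  have key : ∀ z : ℝ, 1 ≤ z → deriv (deriv kk) z = 0 := by
    intro z hz
    have hd : DifferentiableAt ℝ (deriv kk) z := by
      have : ContDiff ℝ 1 (deriv kk) := by
        have h2 : ContDiff ℝ (1 + 1) kk := kk_contDiff.of_le (by norm_num; exact two_le_infty)
        exact (contDiff_succ_iff_deriv.1 h2).2.2
      exact (this.differentiable (by norm_num)) z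
    have h1 : HasDerivWithinAt (deriv kk) (deriv (deriv kk) z) (Ici z) z :=
      hd.hasDerivAt.hasDerivWithinAt
    have h2 : HasDerivWithinAt (deriv kk) 0 (Ici z) z := by
      have : HasDerivWithinAt (fun _ : ℝ => (0 : ℝ)) 0 (Ici z) z := hasDerivWithinAt_const _ _ _
      refine this.congr_of_mem (fun x hx => ?_) (by simp)
      exact deriv_kk_eq_zero (le_abs.2 (Or.inl (hz.trans hx)))
    exact (uniqueDiffOn_Ici z z (by simp)).eq_deriv _ h1 h2
  rcases le_abs.1 h with h1 | h1
  · exact key y h1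
  · rw [← deriv2_kk_even]; exact key (-y) h1
lemma deriv_chi_plateau {y : ℝ} (h1 : 61 / 30 < |y|) (h2 : |y| < 62 / 30) :
    deriv chi y = 0 := by
  have hev : chi =ᶠ[nhds y] fun _ => (1 : ℝ) := by
    have hc : Continuous (fun t : ℝ => |t|) := continuous_abs
    have ha : ∀ᶠ t in nhds y, 61 / 30 < |t| := hc.continuousAt.eventually_const_lt h1 
    have hb : ∀ᶠ t in nhds y, |t| < 62 / 30 := hc.continuousAt.eventually_lt_const h2 
    filter_upwards [ha, hb] with t h3 h4
    exact chi_eq_one h3.le h4.le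
  rw [hev.deriv_eq]; simp

lemma bdd_of_zero_outside {f : ℝ → ℝ} (hf : Continuous f) {R : ℝ}
    (h : ∀ y, R ≤ |y| → f y = 0) : ∃ C : ℝ, 1 ≤ C ∧ ∀ y, |f y| ≤ C := by
  obtain ⟨C, hC⟩ := (isCompact_Icc (a := -R) (b := R)).exists_bound_of_continuousOn
    hf.continuousOn
  refine ⟨max C 1, le_max_right _ _, fun y => ?_⟩
  by_cases hy : |y| ≤ R
  · exact (hC y ⟨(abs_le.1 hy).1, (abs_le.1 hy).2⟩).trans (le_max_left _ _)
  · rw [h y (not_le.1 hy).le]; simp

lemma iteratedDeriv_zero_outside {f : ℝ → ℝ} {R : ℝ} (h : ∀ y, R ≤ |y| → f y = 0) (n : ℕ) :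
    ∀ y, R < |y| → iteratedDeriv n f y = 0 := by
  intro y hy
  have hev : f =ᶠ[nhds y] fun _ => (0 : ℝ) := by
    have hc : Continuous (fun t : ℝ => |t|) := continuous_abs
    filter_upwards [hc.continuousAt.eventually_const_lt hy] with t ht
    exact h t ht.le
  rw [hev.iteratedDeriv_eq]
  simp

/-- bounds of all derivatives (`kk`, `chi` have compact support). -/
lemma iteratedDeriv_kk_bdd (n : ℕ) : ∃ C : ℝ, 1 ≤ C ∧ ∀ y, |iteratedDeriv n kk y| ≤ C := by
  refine bdd_of_zero_outside (R := 2) ?_ ?_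
  · exact kk_contDiff.continuous_iteratedDeriv n (by exact_mod_cast le_top)
  · intro y hy
    exact iteratedDeriv_zero_outside (R := 1) (fun z hz => kk_eq_zero hz) n y (by linarith)
lemma iteratedDeriv_chi_bdd (n : ℕ) : ∃ C : ℝ, 1 ≤ C ∧ ∀ y, |iteratedDeriv n chi y| ≤ C := by
  refine bdd_of_zero_outside (R := 3) ?_ ?_
  · exact chi_contDiff.continuous_iteratedDeriv n (by exact_mod_cast le_top)
  · intro y hy
    exact iteratedDeriv_zero_outside (R := 21 / 10) (fun z hz => chi_eq_zero' hz) n y (by linarith)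

/-- nonnegative `C^2` functions: `|f'|^2 ≤ 2 sup|f''| f`. -/
lemma sq_deriv_le {f : ℝ → ℝ} (hf : ContDiff ℝ 2 f) (h0 : ∀ x, 0 ≤ f x) {C : ℝ} (hC : 0 < C)
    (h2 : ∀ x, |deriv (deriv f) x| ≤ C) (x : ℝ) : |deriv f x| ^ 2 ≤ 2 * C * f x := by
  have hd1 : Differentiable ℝ f := hf.differentiable (by norm_num)
  have hf' : ContDiff ℝ 1 (deriv f) := by
    have h2 : ContDiff ℝ (1 + 1) f := hf.of_le (by norm_num)
    exact (contDiff_succ_iff_deriv.1 h2).2.2
  have hd2 : Differentiable ℝ (deriv f) := hf'.differentiable (by norm_num)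
  -- Taylor upper bound: `f (x + h) ≤ f x + f' x h + C h^2 / 2`
  have key : ∀ h : ℝ, f (x + h) ≤ f x + deriv f x * h + C * h ^ 2 / 2 := by
    -- the function `g t = f x + f' x (t - x) + C (t-x)^2/2 - f t` is convex with critical point x
    set g : ℝ → ℝ := fun t => f x + deriv f x * (t - x) + C * (t - x) ^ 2 / 2 - f t with hg
    have hg1 : ∀ t, HasDerivAt g (deriv f x + C * (t - x) - deriv f t) t := by
      intro t
      have := (((hasDerivAt_id t).sub_const x).const_mul (deriv f x)).const_add (f x)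
      have h3 := ((((hasDerivAt_id t).sub_const x).pow 2).const_mul C).div_const 2
      have h4 := (this.add h3).sub (hd1 t).hasDerivAt
      refine h4.congr_deriv ?_
      simp; ring
    have hderiv : deriv g = fun t => deriv f x + C * (t - x) - deriv f t :=
      funext fun t => (hg1 t).deriv
    have hmono : Monotone (deriv g) := by
      have hd : Differentiable ℝ (deriv g) := by
        rw [hderiv]; fun_prop
      refine monotone_of_deriv_nonneg hd (fun t => ?_)
      have h5 : HasDerivAt (deriv g) (C - deriv (deriv f) t) t := by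
        rw [hderiv]
        have := ((((hasDerivAt_id t).sub_const x).const_mul C).const_add (deriv f x)).sub
          (hd2 t).hasDerivAt
        refine this.congr_deriv ?_
        simp
      rw [h5.deriv]
      have := abs_le.1 (h2 t)
      linarith [this.2]
    have hcv : ConvexOn ℝ univ g :=
      Monotone.convexOn_univ_of_deriv (fun t => (hg1 t).differentiableAt) hmono
    intro h
    have hmin : IsMinOn g univ x := by
      refine hcv.isMinOn_of_rightDeriv_eq_zero (by simp) ?_
      have : HasDerivAt g 0 x := by simpa using hg1 x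
      exact (this.hasDerivWithinAt (s := Ioi x)).derivWithin (uniqueDiffWithinAt_Ioi x)
    have h6 := hmin (mem_univ (x + h))
    simp only [hg] at h6
    have h7 : f x + deriv f x * (x - x) + C * (x - x) ^ 2 / 2 - f x = 0 := by ring
    simp only [Set.mem_ofPred_eq] at h6
    nlinarith [h6]
  have h3 := key (-(deriv f x) / C)
  have h4 := h0 (x + -(deriv f x) / C)
  have h5 : 0 ≤ f x + deriv f x * (-(deriv f x) / C) + C * (-(deriv f x) / C) ^ 2 / 2 :=
    h4.trans h3
  have h6 : f x + deriv f x * (-(deriv f x) / C) + C * (-(deriv f x) / C) ^ 2 / 2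
      = f x - (deriv f x) ^ 2 / (2 * C) := by field_simp; ring
  rw [h6] at h5
  have h7 : (deriv f x) ^ 2 / (2 * C) ≤ f x := by linarith
  rw [div_le_iff₀ (by positivity)] at h7
  rw [sq_abs]; linarith

/-- one constant for the first derivatives and the square root bounds. -/
lemma exists_Ck : ∃ C : ℝ, 1 ≤ C ∧ (∀ y, |deriv kk y| ≤ C) ∧ (∀ y, |deriv (deriv kk) y| ≤ C) ∧
    (∀ y, |deriv chi y| ≤ C) ∧ (∀ y, |deriv (deriv chi) y| ≤ C) ∧
    (∀ y, |deriv kk y| ^ 2 ≤ C * kk y) ∧ (∀ y, |deriv chi y| ^ 2 ≤ C * chi y) := by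
  obtain ⟨a1, ha1, h1⟩ := iteratedDeriv_kk_bdd 1
  obtain ⟨a2, ha2, h2⟩ := iteratedDeriv_kk_bdd 2
  obtain ⟨a3, ha3, h3⟩ := iteratedDeriv_chi_bdd 1
  obtain ⟨a4, ha4, h4⟩ := iteratedDeriv_chi_bdd 2
  simp only [iteratedDeriv_one] at h1 h3
  simp only [iteratedDeriv_succ, iteratedDeriv_zero] at h2 h4
  set C := a1 + 2 * a2 + a3 + 2 * a4 with hC
  refine ⟨C, by linarith, fun y => (h1 y).trans (by linarith), fun y => (h2 y).trans (by linarith),
    fun y => (h3 y).trans (by linarith), fun y => (h4 y).trans (by linarith), fun y => ?_,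
    fun y => ?_⟩
  · refine (sq_deriv_le (kk_contDiff.of_le two_le_infty) kk_nonneg
      (by linarith : 0 < a2) h2 y).trans ?_
    exact mul_le_mul_of_nonneg_right (by linarith) (kk_nonneg y)
  · refine (sq_deriv_le (chi_contDiff.of_le two_le_infty) chi_nonneg
      (by linarith : 0 < a4) h4 y).trans ?_
    exact mul_le_mul_of_nonneg_right (by linarith) (chi_nonneg y)

private lemma kk_diff : Differentiable ℝ kk := kk_contDiff.differentiable (by simp)
private lemma chi_diff : Differentiable ℝ chi := chi_contDiff.differentiable (by simp)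
private lemma dkk_diff : Differentiable ℝ (deriv kk) := by
  have h2 : ContDiff ℝ (1 + 1) kk := kk_contDiff.of_le (by norm_num; exact two_le_infty)
  exact ((contDiff_succ_iff_deriv.1 h2).2.2).differentiable (by norm_num)

/-- the partial derivatives of `b0`, `bb`. -/
lemma dx_b0 (P : Par) (x y : ℝ) : HasDerivAt (fun t => b0 P t y) (b0x P x y) x := by
  unfold b0 b0x
  have h1 := (((hasDerivAt_id x).pow 2).const_mul (P.eps * chi y)).div_const 2
  have h2 := ((((hasDerivAt_id x).pow 2).div_const 2).sub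
    (((hasDerivAt_id x).pow 4).div_const 12)).const_mul (P.epsc * kk y)
  have h3 := h1.neg.add h2
  refine h3.congr_deriv ?_
  simp; ring
lemma dx_b0x (P : Par) (x y : ℝ) : HasDerivAt (fun t => b0x P t y) (b0xx P x y) x := by
  unfold b0x b0xx
  have h1 := ((hasDerivAt_id x).const_mul (P.eps * chi y))
  have h2 := (((hasDerivAt_id x)).sub
    (((hasDerivAt_id x).pow 3).div_const 3)).const_mul (P.epsc * kk y)
  have h3 := h1.neg.add h2
  refine h3.congr_deriv ?_
  simp
lemma dy_b0 (P : Par) (x y : ℝ) : HasDerivAt (fun t => b0 P x t) (b0y P x y) y := by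
  unfold b0 b0y
  have h1 := ((((chi_diff y).hasDerivAt.const_mul P.eps).mul_const (x ^ 2))).div_const 2
  have h2 := ((kk_diff y).hasDerivAt.const_mul P.epsc).mul_const (x ^ 2 / 2 - x ^ 4 / 12)
  exact h1.neg.add h2

lemma dx_bb (P : Par) (hr : 0 < P.r) (x y : ℝ) :
    HasDerivAt (fun t => bb P t y) (bbx P x y) x := by
  have hl : P.lam ≠ 0 := by unfold Par.lam; positivity
  unfold bb bbx
  have h1 : HasDerivAt (fun t => kk (t / P.lam)) (deriv kk (x / P.lam) * (1 / P.lam)) x :=
    HasDerivAt.comp x (h := fun t : ℝ => t / P.lam) (kk_diff (x / P.lam)).hasDerivAt ((hasDerivAt_id x).div_const P.lam)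
  have h2 := (h1.const_mul (P.eta * P.epsc * P.lam ^ 2)).mul_const (kk (y / P.lam))
  refine h2.congr_deriv ?_
  field_simp
lemma dx_bbx (P : Par) (hr : 0 < P.r) (x y : ℝ) :
    HasDerivAt (fun t => bbx P t y) (bbxx P x y) x := by
  have hl : P.lam ≠ 0 := by unfold Par.lam; positivity
  unfold bbx bbxx
  have h1 : HasDerivAt (fun t => deriv kk (t / P.lam))
      (deriv (deriv kk) (x / P.lam) * (1 / P.lam)) x :=
    HasDerivAt.comp x (h := fun t : ℝ => t / P.lam) (dkk_diff (x / P.lam)).hasDerivAt ((hasDerivAt_id x).div_const P.lam)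
  have h2 := (h1.const_mul (P.eta * P.epsc * P.lam)).mul_const (kk (y / P.lam))
  refine h2.congr_deriv ?_
  field_simp
lemma dy_bb (P : Par) (hr : 0 < P.r) (x y : ℝ) :
    HasDerivAt (fun t => bb P x t) (bby P x y) y := by
  have hl : P.lam ≠ 0 := by unfold Par.lam; positivity
  unfold bb bby
  have h1 : HasDerivAt (fun t => kk (t / P.lam)) (deriv kk (y / P.lam) * (1 / P.lam)) y :=
    HasDerivAt.comp y (h := fun t : ℝ => t / P.lam) (kk_diff (y / P.lam)).hasDerivAt ((hasDerivAt_id y).div_const P.lam)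
  have h2 := h1.const_mul (P.eta * P.epsc * P.lam ^ 2 * kk (x / P.lam))
  refine h2.congr_deriv ?_
  field_simp

/-- the bump vanishes off the small square. -/
lemma bb_eq_zero (P : Par) (hr : 0 < P.r) {x y : ℝ} (h : P.lam ≤ |x| ∨ P.lam ≤ |y|) :
    bb P x y = 0 ∧ bbx P x y = 0 ∧ bbxx P x y = 0 ∧ bby P x y = 0 := by
  have hl : 0 < P.lam := by unfold Par.lam; positivity
  have key : ∀ z : ℝ, P.lam ≤ |z| → 1 ≤ |z / P.lam| := by
    intro z hz
    rw [abs_div, abs_of_pos hl, le_div_iff₀ hl, one_mul]; exact hz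
  unfold bb bbx bbxx bby
  rcases h with h | h
  · rw [kk_eq_zero (key x h), deriv_kk_eq_zero (key x h), deriv2_kk_eq_zero (key x h)]
    simp
  · rw [kk_eq_zero (key y h), deriv_kk_eq_zero (key y h)]
    simp

lemma Par.eps_eq (P : Par) : P.eps = P.s ^ 2 := by
  unfold Par.eps Par.s; rw [← pow_mul]; congr 1; ring
lemma Par.epsc_eq (P : Par) : P.epsc = P.r ^ 2 * P.s ^ 2 := by
  unfold Par.epsc Par.s; rw [← pow_mul, ← pow_add]; congr 1; ring
lemma Par.epsc_eq' (P : Par) : P.epsc = P.r ^ 2 * P.eps := by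
  rw [P.epsc_eq, P.eps_eq]
lemma Par.lam_eq (P : Par) : P.lam = P.r ^ 2 * P.s := by
  unfold Par.lam Par.s; rw [← pow_add]; congr 1; ring
lemma Par.s_eq (P : Par) : P.s = P.W1 * P.r ^ P.k := by
  unfold Par.s Par.W1; rw [← pow_add]; congr 1; ring

end P229
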