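import Vale.Agent.P229.Defs

/-!
# P229: interface theorems, one per block (each to be proved in `Vale/Agent/P229/<Block>/Main.lean`).
This file only states them as `Prop`-valued definitions; the assembly uses them as hypotheses.
-/

namespace P229

open Set Real
open scoped ContDiff

noncomputable section

/-- Block A: from the immersion to the normalised height function. -/
def BlockA : Prop := ∀ (C0 : ℝ) (k b : ℕ), 1 ≤ C0 → 10 ≤ k → 20 * k + 10 ≤ b → ∃ C1 r0 : ℝ, 1 ≤ C1 ∧ 0 < r0 ∧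
  ∀ r : ℝ, 0 < r → r < r0 → ∀ Φ : ℝ × ℝ → E3, BadMap ⟨r, k, b⟩ C0 Φ →
    ∃ (mu : ℝ) (z : ℝ → ℝ → ℝ), 1 / C1 ≤ mu ∧ mu ≤ C1 ∧ GoodZ ⟨r, k, b⟩ mu C1 z

/-- Block B: Legendre transform. -/
def BlockB : Prop := ∀ (C1 : ℝ) (k b : ℕ), 1 ≤ C1 → 10 ≤ k → 20 * k + 10 ≤ b → ∃ C2 r0 : ℝ, C1 ≤ C2 ∧ 0 < r0 ∧
  ∀ r : ℝ, 0 < r → r < r0 → ∀ (mu : ℝ) (z : ℝ → ℝ → ℝ), 1 / C1 ≤ mu → mu ≤ C1 →
    GoodZ ⟨r, k, b⟩ mu C1 z → ∃ u : ℝ → ℝ → ℝ, GoodU ⟨r, k, b⟩ mu C2 u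

/-- Block C: the lateral data are slow. -/
def BlockC : Prop := ∀ (C1 : ℝ) (k b n : ℕ), 1 ≤ C1 → 10 ≤ k → 20 * k + 10 ≤ b → ∃ C r0 : ℝ, 1 ≤ C ∧ 0 < r0 ∧
  ∀ r : ℝ, 0 < r → r < r0 → ∀ (mu : ℝ) (u : ℝ → ℝ → ℝ), 1 / C1 ≤ mu → mu ≤ C1 →
    GoodU ⟨r, k, b⟩ mu C1 u → ∀ p : ℝ, |p| ≤ 143 / 100 →
      |iteratedDeriv n (fun t => dx (dx u) t YY) p| * (r ^ (10 * k)) ^ n ≤ C ∧
      |iteratedDeriv n (fun t => dx (dx u) t (-YY)) p| * (r ^ (10 * k)) ^ n ≤ C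

/-- Block D (D1 + D2): slow approximate solution. -/
def BlockD : Prop := ∀ (C1 : ℝ) (k b Q : ℕ), 1 ≤ C1 → 10 ≤ k → 20 * k + 10 ≤ b → ∃ C2 r0 : ℝ, 1 ≤ C2 ∧ 0 < r0 ∧
  ∀ r : ℝ, 0 < r → r < r0 → ∀ (mu : ℝ) (u : ℝ → ℝ → ℝ), 1 / C1 ≤ mu → mu ≤ C1 →
    GoodU ⟨r, k, b⟩ mu C1 u → ∃ U : J2, SlowU ⟨r, k, b⟩ mu C2 Q u U

/-- Output of block T. -/
structure TOut (P : Par) (M : ℕ) (Cx : ℝ) (u : ℝ → ℝ → ℝ) (U : J2) : Prop where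
  left : (∫ p in (-(5 / 4) : ℝ)..(-(2 * P.W1)), ∫ y in (-YY)..YY, eden P u U p y) ≤ P.r ^ M
  right : (∫ p in (2 * P.W1)..(5 / 4 : ℝ), ∫ y in (-YY)..YY, eden P u U p y) ≤ P.r ^ M
  mid : (∫ p in (-(3 * P.W1))..(3 * P.W1), ∫ y in (-YY)..YY, eden P u U p y)
    ≤ Cx * (P.eta ^ 2 * P.epsc * P.lam ^ 2 * P.s * P.W1)

/-- Block T: energy estimates for `v = u - U`. -/
def BlockT : Prop := ∀ (C1 C2 : ℝ) (k b M : ℕ), 1 ≤ C1 → 1 ≤ C2 → 10 ≤ k → 20 * k + 10 ≤ b →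
  2 * b + 100 * (k + 1) ≤ M → ∃ Cx r0 : ℝ, 1 ≤ Cx ∧ 0 < r0 ∧
  ∀ r : ℝ, 0 < r → r < r0 → ∀ (mu : ℝ) (u : ℝ → ℝ → ℝ) (U : J2), 1 / C1 ≤ mu → mu ≤ C1 →
    GoodU ⟨r, k, b⟩ mu C1 u → SlowU ⟨r, k, b⟩ mu C2 (2 * M) u U → TOut ⟨r, k, b⟩ M Cx u U

/-- Block F: the pairing gives a contradiction. -/
def BlockF : Prop := ∀ (C1 C2 Cx : ℝ) (k b M : ℕ), 1 ≤ C1 → 1 ≤ C2 → 1 ≤ Cx → 10 ≤ k → 20 * k + 10 ≤ b →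
  2 * b + 100 * (k + 1) ≤ M → ∃ r0 : ℝ, 0 < r0 ∧
  ∀ r : ℝ, 0 < r → r < r0 → ∀ (mu : ℝ) (u : ℝ → ℝ → ℝ) (U : J2), 1 / C1 ≤ mu → mu ≤ C1 →
    GoodU ⟨r, k, b⟩ mu C1 u → SlowU ⟨r, k, b⟩ mu C2 (2 * M) u U →
      TOut ⟨r, k, b⟩ M Cx u U → False

/-- The gadget lemma. -/
def GadgetLemma : Prop := ∀ (C0 : ℝ) (k b : ℕ), 1 ≤ C0 → 10 ≤ k → 20 * k + 10 ≤ b → ∃ r0 : ℝ, 0 < r0 ∧
  ∀ r : ℝ, 0 < r → r < r0 → ∀ Φ : ℝ × ℝ → E3, ¬ BadMap ⟨r, k, b⟩ C0 Φ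

/-- The final theorem: a smooth metric near `0` without any smooth local isometric immersion
into `ℝ^3`. -/
def FinalStatement : Prop :=
  ∃ E F G : ℝ × ℝ → ℝ, ContDiff ℝ ∞ E ∧ ContDiff ℝ ∞ F ∧ ContDiff ℝ ∞ G ∧
    (∀ q, 0 < E q ∧ 0 < E q * G q - F q ^ 2) ∧
    ∀ U : Set (ℝ × ℝ), IsOpen U → (0 : ℝ × ℝ) ∈ U →
      ¬ ∃ Φ : ℝ × ℝ → E3, ContDiffOn ℝ ∞ Φ U ∧ ∀ q ∈ U,
        inner ℝ (fderiv ℝ Φ q (1, 0)) (fderiv ℝ Φ q (1, 0)) = E q ∧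
        inner ℝ (fderiv ℝ Φ q (1, 0)) (fderiv ℝ Φ q (0, 1)) = F q ∧
        inner ℝ (fderiv ℝ Φ q (0, 1)) (fderiv ℝ Φ q (0, 1)) = G q

/-- Block G: global assembly. -/
def BlockG : Prop := GadgetLemma → FinalStatement

/-- Assembly of the gadget lemma from the blocks. -/
theorem gadgetLemma_of_blocks (hA : BlockA) (hB : BlockB) (hD : BlockD) (hT : BlockT)
    (hF : BlockF) : GadgetLemma := by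
  intro C0 k b hC0 hk hb
  obtain ⟨C1, r1, hC1, hr1, HA⟩ := hA C0 k b hC0 hk hb
  obtain ⟨C2, r2, hC2, hr2, HB⟩ := hB C1 k b hC1 hk hb
  have hC2' : 1 ≤ C2 := hC1.trans hC2
  set M := 2 * b + 100 * (k + 1) with hM
  obtain ⟨C3, r3, hC3, hr3, HD⟩ := hD C2 k b (2 * M) hC2' hk hb
  obtain ⟨Cx, r4, hCx, hr4, HT⟩ := hT C2 C3 k b M hC2' hC3 hk hb le_rfl
  obtain ⟨r5, hr5, HF⟩ := hF C2 C3 Cx k b M hC2' hC3 hCx hk hb le_rfl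
  refine ⟨min (min (min r1 r2) (min r3 r4)) r5, by positivity, ?_⟩
  intro r h0 hr Φ hΦ
  have h1 : r < r1 := lt_of_lt_of_le hr
    ((min_le_left _ _).trans ((min_le_left _ _).trans (min_le_left _ _)))
  have h2 : r < r2 := lt_of_lt_of_le hr
    ((min_le_left _ _).trans ((min_le_left _ _).trans (min_le_right _ _)))
  have h3 : r < r3 := lt_of_lt_of_le hr
    ((min_le_left _ _).trans ((min_le_right _ _).trans (min_le_left _ _)))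
  have h4 : r < r4 := lt_of_lt_of_le hr
    ((min_le_left _ _).trans ((min_le_right _ _).trans (min_le_right _ _)))
  have h5 : r < r5 := lt_of_lt_of_le hr (min_le_right _ _)
  obtain ⟨mu, z, hm1, hm2, hz⟩ := HA r h0 h1 Φ hΦ
  obtain ⟨u, hu⟩ := HB r h0 h2 mu z hm1 hm2 hz
  have hm1' : 1 / C2 ≤ mu := le_trans (one_div_le_one_div_of_le (by linarith) hC2) hm1
  have hm2' : mu ≤ C2 := hm2.trans hC2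
  obtain ⟨U, hU⟩ := HD r h0 h3 mu u hm1' hm2' hu
  exact HF r h0 h5 mu u U hm1' hm2' hu hU (HT r h0 h4 mu u U hm1' hm2' hu hU)

end

end P229
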