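import Mathlib

/-!
# P229: definitions (profiles, gadget, PDE operator, interface structures)   (helper80)
See notes/P229.md.
-/

namespace P229

open Set Real
open scoped ContDiff

noncomputable section

/-- Partial derivative in the first variable. -/
def dx (f : ℝ → ℝ → ℝ) (x y : ℝ) : ℝ := deriv (fun t => f t y) x

/-- Partial derivative in the second variable. -/
def dy (f : ℝ → ℝ → ℝ) (x y : ℝ) : ℝ := deriv (fun t => f x t) y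

/-- core profile: `1` on `|y| ≤ 1/2`, `0` for `|y| ≥ 1`, even. -/
def kk (y : ℝ) : ℝ := Real.smoothTransition (2 * (1 - y)) * Real.smoothTransition (2 * (1 + y))

/-- one filter strip: support `[2, 21/10]`, `1` on `[2+1/30, 21/10-1/30]`. -/
def chi1 (y : ℝ) : ℝ :=
  Real.smoothTransition (30 * (y - 2)) * Real.smoothTransition (30 * (21 / 10 - y))

/-- the two filter strips. -/
def chi (y : ℝ) : ℝ := chi1 y + chi1 (-y)

/-- cutoff in `x`: `1` on `|x| ≤ 3/2`, `0` for `|x| ≥ 2`. -/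
def cut (x : ℝ) : ℝ := Real.smoothTransition (2 * (2 - x)) * Real.smoothTransition (2 * (2 + x))

/-- half height of the strip. -/
def YY : ℝ := 41 / 20

/-- Parameters of a gadget: size `r`, levels `k`, `b`. -/
structure Par where
  r : ℝ
  k : ℕ
  b : ℕ

namespace Par
/-- `s = sqrt eps`, the slow scale. -/
def s (P : Par) : ℝ := P.r ^ (10 * P.k)
/-- filter strength. -/
def eps (P : Par) : ℝ := P.r ^ (20 * P.k)
/-- core strength `r^2 eps`. -/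
def epsc (P : Par) : ℝ := P.r ^ (20 * P.k + 2)
/-- size of the bump `r^2 s`. -/
def lam (P : Par) : ℝ := P.r ^ (10 * P.k + 2)
/-- amplitude of the bump. -/
def eta (P : Par) : ℝ := P.r ^ P.b
/-- window. -/
def W1 (P : Par) : ℝ := P.r ^ (9 * P.k)
end Par

/-- `beta0` without the cutoff in `x`, and its explicit derivatives. -/
def b0 (P : Par) (x y : ℝ) : ℝ :=
  -(P.eps * chi y * x ^ 2 / 2) + P.epsc * kk y * (x ^ 2 / 2 - x ^ 4 / 12)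
def b0x (P : Par) (x y : ℝ) : ℝ :=
  -(P.eps * chi y * x) + P.epsc * kk y * (x - x ^ 3 / 3)
def b0xx (P : Par) (x y : ℝ) : ℝ :=
  -(P.eps * chi y) + P.epsc * kk y * (1 - x ^ 2)
def b0y (P : Par) (x y : ℝ) : ℝ :=
  -(P.eps * deriv chi y * x ^ 2 / 2) + P.epsc * deriv kk y * (x ^ 2 / 2 - x ^ 4 / 12)

/-- the bump and its explicit derivatives. -/
def bb (P : Par) (x y : ℝ) : ℝ := P.eta * P.epsc * P.lam ^ 2 * kk (x / P.lam) * kk (y / P.lam)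
def bbx (P : Par) (x y : ℝ) : ℝ := P.eta * P.epsc * P.lam * deriv kk (x / P.lam) * kk (y / P.lam)
def bbxx (P : Par) (x y : ℝ) : ℝ := P.eta * P.epsc * deriv (deriv kk) (x / P.lam) * kk (y / P.lam)
def bby (P : Par) (x y : ℝ) : ℝ := P.eta * P.epsc * P.lam * kk (x / P.lam) * deriv kk (y / P.lam)

/-- the function `beta` of the gadget, unit scale. -/
def beta (P : Par) (x y : ℝ) : ℝ := cut x * b0 P x y + bb P x y

/-- metric coefficient of the gadget, unit scale: the metric is `dx^2 + Bu^2 dy^2`. -/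
def Bu (P : Par) (x y : ℝ) : ℝ := 1 + P.r ^ 2 * beta P x y

/-- metric coefficient of the gadget, real scale: the metric is `dX^2 + Bgad^2 dY^2`. -/
def Bgad (P : Par) (X Y : ℝ) : ℝ := Bu P (X / P.r) (Y / P.r)

/-- The PDE operator as an algebraic function: given the values `B, bx, by', bxx` of
`B, beta_x, beta_y, beta_xx` at `(x,y) = (u_p, y)`. -/
def EEalg (r mu B bx by' bxx p uy upp upy uyy : ℝ) : ℝ :=
  uyy + 2 * (r ^ 2 * bx * (-uy / B)) * upy + (r ^ 2 * bx * (-uy / B)) ^ 2 * upp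
    - B * (mu - r ^ 2 * (p ^ 2 + (-uy / B) ^ 2)) * bxx * upp
    + r ^ 2 * ((-uy / B) * by' - B * p * bx)

/-- operator with the bump (valid for `|x| ≤ 3/2`, where `cut = 1`); `x = u_p`. -/
def EE (P : Par) (mu p y x uy upp upy uyy : ℝ) : ℝ :=
  EEalg P.r mu (1 + P.r ^ 2 * (b0 P x y + bb P x y)) (b0x P x y + bbx P x y)
    (b0y P x y + bby P x y) (b0xx P x y + bbxx P x y) p uy upp upy uyy

/-- operator without the bump; `x = u_p`. -/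
def EE0 (P : Par) (mu p y x uy upp upy uyy : ℝ) : ℝ :=
  EEalg P.r mu (1 + P.r ^ 2 * b0 P x y) (b0x P x y) (b0y P x y) (b0xx P x y) p uy upp upy uyy

/-- Output of block A: the normalised height function `z` on `|x| < 17/10`, `|y| < 22/10`. -/
structure GoodZ (P : Par) (mu C1 : ℝ) (z : ℝ → ℝ → ℝ) : Prop where
  smooth : ContDiffOn ℝ ∞ (Function.uncurry z)
    (Ioo (-(17 / 10) : ℝ) (17 / 10) ×ˢ Ioo (-(22 / 10) : ℝ) (22 / 10))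
  z00 : z 0 0 = 0
  zx0 : dx z 0 0 = 0
  zy0 : dy z 0 0 = 0
  zxx0 : dx (dx z) 0 0 = 1
  zxy0 : |dy (dx z) 0 0| ≤ 1 / 100
  zyy : ∀ x y : ℝ, |x| < 17 / 10 → |y| < 22 / 10 → |dy (dy z) x y| ≤ C1
  zxxx : ∀ x y : ℝ, |x| < 17 / 10 → |y| < 22 / 10 → |dx (dx (dx z)) x y| ≤ C1 * P.r
  zxxy : ∀ x y : ℝ, |x| < 17 / 10 → |y| < 22 / 10 → |dy (dx (dx z)) x y| ≤ C1 * P.r
  zxyy : ∀ x y : ℝ, |x| < 17 / 10 → |y| < 22 / 10 → |dy (dy (dx z)) x y| ≤ C1 * P.r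
  zxxxx : ∀ x y : ℝ, |x| < 17 / 10 → |y| < 22 / 10 → |dx (dx (dx (dx z))) x y| ≤ C1 * P.r
  zxxxy : ∀ x y : ℝ, |x| < 17 / 10 → |y| < 22 / 10 → |dy (dx (dx (dx z))) x y| ≤ C1 * P.r
  zxxyy : ∀ x y : ℝ, |x| < 17 / 10 → |y| < 22 / 10 → |dy (dy (dx (dx z))) x y| ≤ C1 * P.r
  /-- Darboux equation, on `|x| < 3/2` where `beta = b0 + bb`. -/
  pde : ∀ x y : ℝ, |x| < 3 / 2 → |y| < 22 / 10 →
    dx (dx z) x y *
        (dy (dy z) x y + (1 + P.r ^ 2 * (b0 P x y + bb P x y)) * (P.r ^ 2 * (b0x P x y + bbx P x y))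
            * dx z x y
          - P.r ^ 2 * (b0y P x y + bby P x y) / (1 + P.r ^ 2 * (b0 P x y + bb P x y)) * dy z x y)
      - (dy (dx z) x y
          - P.r ^ 2 * (b0x P x y + bbx P x y) / (1 + P.r ^ 2 * (b0 P x y + bb P x y)) * dy z x y) ^ 2
    = -(1 + P.r ^ 2 * (b0 P x y + bb P x y)) * (b0xx P x y + bbxx P x y)
        * (mu - P.r ^ 2 * ((dx z x y) ^ 2
            + (dy z x y / (1 + P.r ^ 2 * (b0 P x y + bb P x y))) ^ 2))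

/-- Output of block B: the Legendre potential `u` (first variable `p`) on `|p| < 144/100`,
`|y| < 208/100`. -/
structure GoodU (P : Par) (mu C1 : ℝ) (u : ℝ → ℝ → ℝ) : Prop where
  smooth : ContDiffOn ℝ ∞ (Function.uncurry u)
    (Ioo (-(144 / 100) : ℝ) (144 / 100) ×ˢ Ioo (-(208 / 100) : ℝ) (208 / 100))
  u00 : u 0 0 = 0
  up0 : dx u 0 0 = 0
  uy0 : dy u 0 0 = 0
  upp : ∀ p y : ℝ, |p| < 144 / 100 → |y| < 208 / 100 → |dx (dx u) p y - 1| ≤ 1 / 100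
  upy : ∀ p y : ℝ, |p| < 144 / 100 → |y| < 208 / 100 → |dy (dx u) p y| ≤ 1 / 50
  up : ∀ p y : ℝ, |p| < 144 / 100 → |y| < 208 / 100 → |dx u p y - p| ≤ 1 / 20
  uy : ∀ p y : ℝ, |p| < 144 / 100 → |y| < 208 / 100 → |dy u p y| ≤ C1
  uyy : ∀ p y : ℝ, |p| < 144 / 100 → |y| < 208 / 100 → |dy (dy u) p y| ≤ C1 * P.eps
  uppp : ∀ p y : ℝ, |p| < 144 / 100 → |y| < 208 / 100 → |dx (dx (dx u)) p y| ≤ C1 * P.r
  uppy : ∀ p y : ℝ, |p| < 144 / 100 → |y| < 208 / 100 → |dy (dx (dx u)) p y| ≤ C1 * P.r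
  upyy : ∀ p y : ℝ, |p| < 144 / 100 → |y| < 208 / 100 → |dy (dy (dx u)) p y| ≤ C1 * P.eps
  upppp : ∀ p y : ℝ, |p| < 144 / 100 → |y| < 208 / 100 → |dx (dx (dx (dx u))) p y| ≤ C1 * P.r
  upppy : ∀ p y : ℝ, |p| < 144 / 100 → |y| < 208 / 100 → |dy (dx (dx (dx u))) p y| ≤ C1 * P.r
  pde : ∀ p y : ℝ, |p| < 144 / 100 → |y| < 208 / 100 →
    EE P mu p y (dx u p y) (dy u p y) (dx (dx u) p y) (dy (dx u) p y) (dy (dy u) p y) = 0

/-- A function of two variables with explicit first and second partial derivatives. -/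
structure J2 where
  w : ℝ → ℝ → ℝ
  wp : ℝ → ℝ → ℝ
  wy : ℝ → ℝ → ℝ
  wpp : ℝ → ℝ → ℝ
  wpy : ℝ → ℝ → ℝ
  wyy : ℝ → ℝ → ℝ

/-- `J` is the 2-jet of a `C^2` function on `[a,b] x [c,d]` (closed rectangle). -/
structure J2.IsJet (J : J2) (a b c d : ℝ) : Prop where
  cw : ContinuousOn (Function.uncurry J.w) (Icc a b ×ˢ Icc c d)
  cwp : ContinuousOn (Function.uncurry J.wp) (Icc a b ×ˢ Icc c d)
  cwy : ContinuousOn (Function.uncurry J.wy) (Icc a b ×ˢ Icc c d)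
  cwpp : ContinuousOn (Function.uncurry J.wpp) (Icc a b ×ˢ Icc c d)
  cwpy : ContinuousOn (Function.uncurry J.wpy) (Icc a b ×ˢ Icc c d)
  cwyy : ContinuousOn (Function.uncurry J.wyy) (Icc a b ×ˢ Icc c d)
  hp : ∀ p ∈ Ioo a b, ∀ y ∈ Icc c d, HasDerivAt (fun t => J.w t y) (J.wp p y) p
  hpp : ∀ p ∈ Ioo a b, ∀ y ∈ Icc c d, HasDerivAt (fun t => J.wp t y) (J.wpp p y) p
  hyp : ∀ p ∈ Ioo a b, ∀ y ∈ Icc c d, HasDerivAt (fun t => J.wy t y) (J.wpy p y) p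
  hy : ∀ p ∈ Icc a b, ∀ y ∈ Ioo c d, HasDerivAt (fun t => J.w p t) (J.wy p y) y
  hpy : ∀ p ∈ Icc a b, ∀ y ∈ Ioo c d, HasDerivAt (fun t => J.wp p t) (J.wpy p y) y
  hyy : ∀ p ∈ Icc a b, ∀ y ∈ Ioo c d, HasDerivAt (fun t => J.wy p t) (J.wyy p y) y

/-- the jet of a smooth function. -/
def jetOf (u : ℝ → ℝ → ℝ) : J2 :=
  ⟨u, dx u, dy u, dx (dx u), dy (dx u), dy (dy u)⟩

/-- Output of block D2: slow approximate solution with the same lateral data. -/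
structure SlowU (P : Par) (mu C2 : ℝ) (Q : ℕ) (u : ℝ → ℝ → ℝ) (U : J2) : Prop where
  jet : U.IsJet (-(14 / 10)) (14 / 10) (-YY) YY
  top : ∀ p ∈ Icc (-(14 / 10) : ℝ) (14 / 10), U.w p YY = u p YY
  bot : ∀ p ∈ Icc (-(14 / 10) : ℝ) (14 / 10), U.w p (-YY) = u p (-YY)
  cw : ∀ p ∈ Icc (-(14 / 10) : ℝ) (14 / 10), ∀ y ∈ Icc (-YY) YY,
    |u p y - U.w p y| ≤ C2 * P.eps
  cp : ∀ p ∈ Icc (-(14 / 10) : ℝ) (14 / 10), ∀ y ∈ Icc (-YY) YY,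
    |dx u p y - U.wp p y| ≤ C2 * P.s
  cy : ∀ p ∈ Icc (-(14 / 10) : ℝ) (14 / 10), ∀ y ∈ Icc (-YY) YY,
    |dy u p y - U.wy p y| ≤ C2 * P.eps
  cpp : ∀ p ∈ Icc (-(14 / 10) : ℝ) (14 / 10), ∀ y ∈ Icc (-YY) YY,
    |dx (dx u) p y - U.wpp p y| ≤ 1 / 100
  cpy : ∀ p ∈ Icc (-(14 / 10) : ℝ) (14 / 10), ∀ y ∈ Icc (-YY) YY,
    |dy (dx u) p y - U.wpy p y| ≤ 1 / 100
  cyy : ∀ p ∈ Icc (-(14 / 10) : ℝ) (14 / 10), ∀ y ∈ Icc (-YY) YY,
    |U.wyy p y| ≤ C2 * P.eps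
  eq : ∀ p ∈ Icc (-(14 / 10) : ℝ) (14 / 10), ∀ y ∈ Icc (-YY) YY,
    |EE0 P mu p y (U.wp p y) (U.wy p y) (U.wpp p y) (U.wpy p y) (U.wyy p y)| ≤ P.r ^ Q

/-- energy density (with both weights) of the difference `v = u - U`. -/
def eden (P : Par) (u : ℝ → ℝ → ℝ) (U : J2) (p y : ℝ) : ℝ :=
  (dy u p y - U.wy p y) ^ 2 + (P.epsc * kk y + P.eps * chi y) * (dx u p y - U.wp p y) ^ 2

abbrev E3 := EuclideanSpace ℝ (Fin 3)

/-- A (nonexistent, for small `r`) isometric immersion of the gadget with non degenerate second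
fundamental form transversal to the core. `Metric.ball (0 : ℝ × ℝ) R` is the square `|X|,|Y| < R`. -/
structure BadMap (P : Par) (C0 : ℝ) (Φ : ℝ × ℝ → E3) : Prop where
  smooth : ContDiffOn ℝ ∞ Φ (Metric.ball (0 : ℝ × ℝ) (3 * P.r))
  iso11 : ∀ q ∈ Metric.ball (0 : ℝ × ℝ) (3 * P.r),
    inner ℝ (fderiv ℝ Φ q (1, 0)) (fderiv ℝ Φ q (1, 0)) = 1
  iso12 : ∀ q ∈ Metric.ball (0 : ℝ × ℝ) (3 * P.r),
    inner ℝ (fderiv ℝ Φ q (1, 0)) (fderiv ℝ Φ q (0, 1)) = 0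
  iso22 : ∀ q ∈ Metric.ball (0 : ℝ × ℝ) (3 * P.r),
    inner ℝ (fderiv ℝ Φ q (0, 1)) (fderiv ℝ Φ q (0, 1)) = (Bgad P q.1 q.2) ^ 2
  bound : ∀ n : ℕ, n ≤ 4 → ∀ q ∈ Metric.ball (0 : ℝ × ℝ) (3 * P.r),
    ‖iteratedFDeriv ℝ n Φ q‖ ≤ C0
  second : ∃ ν : E3, ‖ν‖ = 1 ∧ inner ℝ ν (fderiv ℝ Φ 0 (1, 0)) = 0 ∧
    inner ℝ ν (fderiv ℝ Φ 0 (0, 1)) = 0 ∧
    1 / C0 ≤ inner ℝ ν (fderiv ℝ (fun q => fderiv ℝ Φ q (1, 0)) 0 (1, 0)) ∧
    |inner ℝ ν (fderiv ℝ (fun q => fderiv ℝ Φ q (1, 0)) 0 (0, 1))|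
      ≤ 1 / 100 * inner ℝ ν (fderiv ℝ (fun q => fderiv ℝ Φ q (1, 0)) 0 (1, 0))

end

end P229
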