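import Vale.Agent.P229.PreFinal
import Vale.Agent.P229.T.Main
import Vale.Agent.P229.F.Main

/-!
# P229: final assembly   (helper80)
-/

namespace P229

/-- a smooth metric without local smooth isometric immersions -/
theorem finalStatement : FinalStatement := finalStatement_of blockT blockF

end P229
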