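import Vale.Agent.P229.Interface
import Vale.Agent.P229.A.Main
import Vale.Agent.P229.B.Main
import Vale.Agent.P229.C.Main
import Vale.Agent.P229.D2.Main
import Vale.Agent.P229.G.Main

/-!
# P229: final assembly, given the blocks T and F   (helper80)
-/

namespace P229

theorem finalStatement_of (hT : BlockT) (hF : BlockF) : FinalStatement :=
  blockG (gadgetLemma_of_blocks blockA blockB (blockD_of_blockC C.blockC) hT hF)

end P229
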